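import Vale.Agent.P309.Lower
import Vale.Agent.P309.Upper

/-!
Memory-sample tradeoff for noiseless Gaussian linear regression.
-/

open Vale.Agent.P309

theorem Vale.Agent.Results.P309.MemorySampleTradeoff.result :
    ∃ c > (0 : ℝ), ∃ C > (0 : ℝ), ∃ ε₀ > (0 : ℝ), ∃ d₀ : ℕ, ∀ d ≥ d₀, ∀ ε : ℝ, 0 < ε → ε ≤ ε₀ →
      ∀ M T : ℕ,
        (∀ N : ℕ, N ≤ 2 ^ M → ∀ L : Learner d N, (2 : ENNReal) / 3 ≤ L.success T ε →
          c * d * Real.log (1 / ε) ≤ M ∧
            c * d * Real.log (1 / ε) / (1 + M / (d : ℝ) ^ 2) ≤ T) ∧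
        (C * d * Real.log (d / ε) ≤ M → C * d * Real.log (1 / ε) ≤ T →
          ∃ N ≤ 2 ^ M, ∃ L : Learner d N, (2 : ENNReal) / 3 ≤ L.success T ε) := by
  refine ⟨1 / 5000000, by norm_num, 40, by norm_num, Real.exp (-100), Real.exp_pos _, 65, ?_⟩
  intro d hd ε hε hε0 M T
  refine ⟨fun N hN L hs => ?_, fun hM hT => ?_⟩
  · obtain ⟨h1, h2⟩ := learner_bound hd hε hε0 hN L hs
    have hl : 0 ≤ Real.log (1 / ε) :=
      Real.log_nonneg (by
        rw [le_div_iff₀ hε, one_mul]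
        exact hε0.trans (Real.exp_le_one_iff.2 (by norm_num)))
    have hdl : 0 ≤ (d : ℝ) * Real.log (1 / ε) := mul_nonneg (Nat.cast_nonneg d) hl
    refine ⟨by nlinarith, le_trans (le_of_eq ?_) h2⟩
    rw [← div_div]
    ring
  · refine exists_learner_kaczmarz (by omega) hε (hε0.trans ?_) hM hT
    rw [one_div, ← Real.exp_log (show (0 : ℝ) < 2⁻¹ by norm_num), Real.exp_le_exp, Real.log_inv]
    linarith [Real.log_two_lt_d9]
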